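import Vale.Agent.Lib.P302.helper86.NestList

/-!
The nested instance: three levels of a pair-packing block around the six items
`10^9 + {6, 3, 1, -2, -3, -6}`, capacity `3 * 10^9`.
-/

namespace Vale.Agent.Lib.P302.helper86

open Vale.Agent.Lib.P302.helper49

/-- The bin capacity. -/
def cap : ℕ := 3000000000

/-- The core without its largest item. -/
def r0 : List (ℕ × ℕ) :=
    [(1000000003, 1), (1000000001, 1), (999999998, 1), (999999997, 1), (999999994, 1)]

/-- Level 1 without its largest item. -/
def r1 : List (ℕ × ℕ) :=
    [(1000000128, 1), (1000000123, 1), (1000000122, 1), (1000000119, 1), (1000000117, 1),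
    (1000000115, 1), (1000000098, 1), (1000000095, 1), (1000000091, 1), (1000000089, 1),
    (1000000087, 1), (1000000072, 1), (1000000006, 3)] ++
    r0 ++
    [(999999935, 2), (999999827, 1), (999999821, 1), (999999818, 1), (999999799, 1),
    (999999766, 1), (999999756, 1), (999999752, 1)]

/-- Level 2 without its largest item. -/
def r2 : List (ℕ × ℕ) :=
    [(1000128000, 1), (1000123000, 1), (1000122000, 1), (1000119000, 1), (1000117000, 1),
    (1000115000, 1), (1000098000, 1), (1000095000, 1), (1000091000, 1), (1000089000, 1),
    (1000087000, 1), (1000072000, 1), (1000000129, 3)] ++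
    r1 ++
    [(999935500, 2), (999827000, 1), (999821000, 1), (999818000, 1), (999799000, 1),
    (999766000, 1), (999756000, 1), (999752000, 1)]

/-- Level 3 without its largest item. -/
def r3 : List (ℕ × ℕ) :=
    [(1128000000, 1), (1123000000, 1), (1122000000, 1), (1119000000, 1), (1117000000, 1),
    (1115000000, 1), (1098000000, 1), (1095000000, 1), (1091000000, 1), (1089000000, 1),
    (1087000000, 1), (1072000000, 1), (1000129000, 3)] ++
    r2 ++
    [(935500000, 2), (827000000, 1), (821000000, 1), (818000000, 1), (799000000, 1),
    (766000000, 1), (756000000, 1), (752000000, 1)]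

theorem np0 : ¬ Perf cap (items ((1000000006, 1) :: r0)) :=
  not_perf_of_refuteP (T := 2) (fuel := 10) (by decide +kernel) (by decide +kernel)
    (by decide +kernel)

theorem np1 : ¬ Perf cap (items ((1000000129, 1) :: r1)) :=
  nest_list (θH := 999999828) (V := 999999935) (jlo := 999999994) (jhi := 1000000006)
    (glo := 1000000072) (d := 1000000006) (nH := 7) (fuel := 30) (t := 1000000006) (m := 1)
    (r := r0) (by decide) (by decide) (by decide) (by decide) (by decide)
    (by decide +kernel) (by decide +kernel) (by decide +kernel) (by decide +kernel)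
    (by decide +kernel) (by decide +kernel) (by decide +kernel) (by decide +kernel)
    (by decide +kernel) np0

theorem np2 : ¬ Perf cap (items ((1000129000, 1) :: r2)) :=
  nest_list (θH := 999828000) (V := 999935500) (jlo := 999999752) (jhi := 1000000129)
    (glo := 1000072000) (d := 1000000129) (nH := 7) (fuel := 30) (t := 1000000129) (m := 1)
    (r := r1) (by decide) (by decide) (by decide) (by decide) (by decide)
    (by decide +kernel) (by decide +kernel) (by decide +kernel) (by decide +kernel)
    (by decide +kernel) (by decide +kernel) (by decide +kernel) (by decide +kernel)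
    (by decide +kernel) np1

theorem np3 : ¬ Perf cap (items ((1129000000, 1) :: r3)) :=
  nest_list (θH := 828000000) (V := 935500000) (jlo := 999752000) (jhi := 1000129000)
    (glo := 1072000000) (d := 1000129000) (nH := 7) (fuel := 30) (t := 1000129000) (m := 1)
    (r := r2) (by decide) (by decide) (by decide) (by decide) (by decide)
    (by decide +kernel) (by decide +kernel) (by decide +kernel) (by decide +kernel)
    (by decide +kernel) (by decide +kernel) (by decide +kernel) (by decide +kernel)
    (by decide +kernel) np2

theorem tm_drop {L a m T : ℕ} {r : List (ℕ × ℕ)} (hr : ∀ u ∈ r, u.1 ≤ a)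
    (h : TripleMatch L (items ((a, m + 1) :: r)) T) (hc : 3 * T < m + 1 + (r.map Prod.snd).sum) :
    TripleMatch L (items ((a, m) :: r)) T := by
  have hit : items ((a, m + 1) :: r) = a ::ₘ items ((a, m) :: r) := by
    rw [items_cons, items_cons, Multiset.replicate_succ, Multiset.cons_add]
  have hmax : ∀ x ∈ items ((a, m + 1) :: r), x ≤ a := by
    intro x hx
    rw [items_cons, Multiset.mem_add] at hx
    rcases hx with hx | hx
    · exact le_of_eq (Multiset.eq_of_mem_replicate hx)
    · obtain ⟨u, hu, rfl⟩ := List.mem_map.mp (mem_items hx)
      exact hr u hu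
  have h1 := tripleMatch_erase_max h (a := a) (by rw [hit]; exact Multiset.mem_cons_self _ _)
    hmax (by rw [card_items]; simpa using hc)
  rw [hit, Multiset.erase_cons_head] at h1
  exact h1

/-- The nested instance (82 items, capacity `3 * 10^9`) cannot be packed into 28 bins. -/
theorem not_packable_nested : ¬ Packable cap (items ((1129000000, 5) :: r3)) 28 := by
  intro hp
  have hbig : ∀ x ∈ items ((1129000000, 5) :: r3), cap < 4 * x :=
    forall_items (P := fun x => cap < 4 * x) (by decide +kernel)
  have htm := tripleMatch_of_packable hbig hp
  have hc : (items ((1129000000, 5) :: r3)).card - 2 * 28 = 26 := by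
    rw [card_items]
    decide +kernel
  rw [hc] at htm
  have hr : ∀ u ∈ r3, u.1 ≤ 1129000000 := by decide +kernel
  have hs : (r3.map Prod.snd).sum = 77 := by decide +kernel
  have h4 := tm_drop hr htm (by rw [hs]; decide)
  have h3 := tm_drop hr h4 (by rw [hs]; decide)
  have h2 := tm_drop hr h3 (by rw [hs]; decide)
  have h1 := tm_drop hr h2 (by rw [hs]; decide)
  obtain ⟨B, -, hB, hj⟩ := perfect_of_tripleMatch h1 (by rw [card_items, List.map_cons, List.sum_cons, hs])
  exact np3 ⟨B, hB, hj⟩

end Vale.Agent.Lib.P302.helper86
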