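import Vale.Agent.Lib.P302.helper49.Perfect

/-!
A nesting lemma for perfect partitions into fitting triples, used to prove that a nested
bin packing instance cannot be packed into too few bins.
-/

namespace Vale.Agent.Lib.P302.helper86

open Vale.Agent.Lib.P302.helper49

/-- `M` can be partitioned into triples, each of total length at most `L`. -/
def Perf (L : ℕ) (M : Multiset ℕ) : Prop :=
  ∃ B : Multiset (Multiset ℕ), (∀ b ∈ B, b.card = 3 ∧ b.sum ≤ L) ∧ B.join = M

/-- Replacing an item by a shorter one keeps a partition into fitting triples. -/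
theorem perf_replace {L a a' : ℕ} {N : Multiset ℕ} (h : Perf L (a' ::ₘ N)) (ha : a ≤ a') :
    Perf L (a ::ₘ N) := by
  obtain ⟨B, hB, hj⟩ := h
  have hmem : a' ∈ B.join := by
    rw [hj]
    exact Multiset.mem_cons_self _ _
  obtain ⟨b, hb, hab⟩ := Multiset.mem_join.mp hmem
  obtain ⟨c, rfl⟩ := Multiset.exists_cons_of_mem hab
  have hj2 := join_eq_add_erase hb
  rw [hj, Multiset.cons_add] at hj2
  have hN : N = c + (B.erase (a' ::ₘ c)).join := (Multiset.cons_inj_right a').mp hj2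
  obtain ⟨hc3, hcs⟩ := hB _ hb
  refine ⟨(a ::ₘ c) ::ₘ B.erase (a' ::ₘ c), ?_, ?_⟩
  · intro b' hb'
    rw [Multiset.mem_cons] at hb'
    rcases hb' with rfl | hb'
    · rw [Multiset.card_cons] at hc3 ⊢
      rw [Multiset.sum_cons] at hcs ⊢
      exact ⟨hc3, by omega⟩
    · exact hB b' (Multiset.mem_of_mem_erase hb')
  · rw [Multiset.join_cons, Multiset.cons_add, hN]

theorem perf_step {L a t : ℕ} {R X : Multiset ℕ} (h : a ::ₘ R = t ::ₘ X) (hat : a ≤ t)
    (hR : Perf L R) : Perf L X := by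
  rcases Multiset.cons_eq_cons.mp h with ⟨rfl, rfl⟩ | ⟨_, cs, rfl, rfl⟩
  · exact hR
  · exact perf_replace hR hat

/-- If `X` is not partitionable, neither is `X` plus two copies of a largest item minus any two
items. -/
theorem perf_of_sub {L t : ℕ} {X R : Multiset ℕ} (hX : ∀ x ∈ X, x ≤ t)
    (hR : R ≤ t ::ₘ t ::ₘ X) (hc : R.card = X.card) (h : Perf L R) : Perf L X := by
  have hcard : (t ::ₘ t ::ₘ X - R).card = 2 := by
    rw [Multiset.card_sub hR]
    simp only [Multiset.card_cons]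
    omega
  obtain ⟨a, b, hab⟩ := Multiset.card_eq_two.mp hcard
  have hJ : a ::ₘ b ::ₘ R = t ::ₘ t ::ₘ X := by
    have h1 := tsub_add_cancel_of_le hR
    rw [hab] at h1
    rw [← h1, Multiset.insert_eq_cons, Multiset.cons_add, Multiset.singleton_add]
  have hmem : ∀ y ∈ t ::ₘ t ::ₘ X, y ≤ t := by
    intro y hy
    rw [Multiset.mem_cons, Multiset.mem_cons] at hy
    rcases hy with rfl | rfl | hy
    · exact le_rfl
    · exact le_rfl
    · exact hX y hy
  have hat : a ≤ t := hmem a (by rw [← hJ]; exact Multiset.mem_cons_self _ _)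
  have hbt : b ≤ t := hmem b (by
    rw [← hJ]
    exact Multiset.mem_cons_of_mem (Multiset.mem_cons_self _ _))
  rcases Multiset.cons_eq_cons.mp hJ with ⟨rfl, h2⟩ | ⟨_, cs, h2, h3⟩
  · exact perf_step h2 hbt h
  · exact perf_step h3.symm hat (perf_step h2 hbt h)

theorem countP_join (p : ℕ → Prop) [DecidablePred p] (B : Multiset (Multiset ℕ)) :
    B.join.countP p = (B.map (fun b => b.countP p)).sum := by
  induction B using Multiset.induction_on with
  | empty => simp
  | cons b B ih =>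
    rw [Multiset.join_cons, Multiset.countP_add, ih, Multiset.map_cons, Multiset.sum_cons]

theorem sum_ind (p : Multiset ℕ → Prop) [DecidablePred p] (B : Multiset (Multiset ℕ)) :
    (B.map (fun b => if p b then 1 else 0)).sum = (B.filter p).card := by
  induction B using Multiset.induction_on with
  | empty => simp
  | cons b B ih =>
    rw [Multiset.map_cons, Multiset.sum_cons, ih, Multiset.filter_cons]
    by_cases h : p b
    · rw [if_pos h, if_pos h, Multiset.card_add, Multiset.card_singleton]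
    · rw [if_neg h, if_neg h, zero_add, zero_add]

theorem elem_cls {θH V jlo jhi glo x : ℕ} (hθV : θH ≤ V) (hVj : V < jlo) (hjj : jlo ≤ jhi) (hjg : jhi < glo)
    (hx : x < θH ∨ x = V ∨ (jlo ≤ x ∧ x ≤ jhi) ∨ glo ≤ x) :
    ∃ g h v : ℕ, (if glo ≤ x then 1 else 0) = g ∧ (if x < θH then 1 else 0) = h ∧
      (if V = x then 1 else 0) = v ∧
      ((g = 0 ∧ h = 1 ∧ v = 0 ∧ x < θH) ∨ (g = 0 ∧ h = 0 ∧ v = 1 ∧ x = V) ∨
        (g = 0 ∧ h = 0 ∧ v = 0 ∧ jlo ≤ x ∧ x ≤ jhi) ∨ (g = 1 ∧ h = 0 ∧ v = 0 ∧ glo ≤ x)) := by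
  rcases hx with hx | hx | hx | hx
  · exact ⟨0, 1, 0, if_neg (by omega), if_pos hx, if_neg (by omega), Or.inl ⟨rfl, rfl, rfl, hx⟩⟩
  · exact ⟨0, 0, 1, if_neg (by omega), if_neg (by omega), if_pos hx.symm,
      Or.inr (Or.inl ⟨rfl, rfl, rfl, hx⟩)⟩
  · exact ⟨0, 0, 0, if_neg (by omega), if_neg (by omega), if_neg (by omega),
      Or.inr (Or.inr (Or.inl ⟨rfl, rfl, rfl, hx.1, hx.2⟩))⟩
  · exact ⟨1, 0, 0, if_pos hx, if_neg (by omega), if_neg (by omega),
      Or.inr (Or.inr (Or.inr ⟨rfl, rfl, rfl, hx⟩))⟩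

/-- The facts about one fitting triple of a nested instance. -/
theorem triple_facts {L θH V jlo jhi glo : ℕ} (hθV : θH ≤ V) (hVj : V < jlo) (hjj : jlo ≤ jhi) (hjg : jhi < glo)
    (hbig : L < glo + V + jlo) {b : Multiset ℕ} (hb3 : b.card = 3) (hbs : b.sum ≤ L)
    (hcls : ∀ x ∈ b, x < θH ∨ x = V ∨ (jlo ≤ x ∧ x ≤ jhi) ∨ glo ≤ x) :
    2 * b.countP (fun x => glo ≤ x) ≤ 2 * b.countP (fun x => x < θH) + b.count V +
        2 * (if b.countP (fun x => glo ≤ x) = 2 ∧ b.countP (fun x => x < θH) = 1 then 1 else 0) ∧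
      b.countP (fun x => glo ≤ x) + b.countP (fun x => x < θH) + b.count V ≤ 3 ∧
      (b.countP (fun x => glo ≤ x) = 2 ∧ b.countP (fun x => x < θH) = 1 →
        ∀ x ∈ b, x < θH ∨ glo ≤ x) ∧
      (b.countP (fun x => glo ≤ x) = 0 ∧ b.countP (fun x => x < θH) = 0 ∧ b.count V = 0 →
        ∀ x ∈ b, jlo ≤ x ∧ x ≤ jhi) := by
  obtain ⟨x, y, z, rfl⟩ := Multiset.card_eq_three.mp hb3
  have e : ({x, y, z} : Multiset ℕ) = x ::ₘ y ::ₘ z ::ₘ 0 := rfl
  rw [e] at hbs hcls ⊢
  obtain ⟨gx, hx, vx, ex1, ex2, ex3, cx⟩ := elem_cls hθV hVj hjj hjg (hcls x (by simp))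
  obtain ⟨gy, hy, vy, ey1, ey2, ey3, cy⟩ := elem_cls hθV hVj hjj hjg (hcls y (by simp))
  obtain ⟨gz, hz, vz, ez1, ez2, ez3, cz⟩ := elem_cls hθV hVj hjj hjg (hcls z (by simp))
  simp only [Multiset.countP_cons, Multiset.countP_zero, Multiset.count_cons, Multiset.count_zero,
    Multiset.sum_cons, Multiset.sum_zero, Multiset.mem_cons, Multiset.notMem_zero, or_false,
    ex1, ex2, ex3, ey1, ey2, ey3, ez1, ez2, ez3] at hbs ⊢
  refine ⟨?_, ?_, ?_, ?_⟩
  · split_ifs <;> omega
  · omega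
  · rintro hc a (rfl | rfl | rfl) <;> omega
  · rintro hc a (rfl | rfl | rfl) <;> omega

theorem countP_or_disj {θH glo : ℕ} (h : θH ≤ glo) (s : Multiset ℕ) :
    s.countP (fun x => x < θH ∨ glo ≤ x) =
      s.countP (fun x => x < θH) + s.countP (fun x => glo ≤ x) := by
  induction s using Multiset.induction_on with
  | empty => simp
  | cons a s ih =>
    simp only [Multiset.countP_cons, ih]
    split_ifs <;> omega

theorem card_classes {θH V jlo jhi glo : ℕ} (hθV : θH ≤ V) (hVj : V < jlo) (hjj : jlo ≤ jhi)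
    (hjg : jhi < glo) (s : Multiset ℕ)
    (hcls : ∀ x ∈ s, x < θH ∨ x = V ∨ (jlo ≤ x ∧ x ≤ jhi) ∨ glo ≤ x) :
    s.card = s.countP (fun x => x < θH) + s.count V + s.countP (fun x => jlo ≤ x ∧ x ≤ jhi) +
      s.countP (fun x => glo ≤ x) := by
  induction s using Multiset.induction_on with
  | empty => simp
  | cons a s ih =>
    have h1 := ih (fun x hx => hcls x (Multiset.mem_cons_of_mem hx))
    have h2 := hcls a (Multiset.mem_cons_self a s)
    simp only [Multiset.card_cons, Multiset.countP_cons, Multiset.count_cons, h1]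
    split_ifs <;> omega

theorem sum_map_const_card {c : ℕ} (f : Multiset ℕ → ℕ) (B : Multiset (Multiset ℕ))
    (h : ∀ b ∈ B, f b = c) : (B.map f).sum = B.card * c := by
  induction B using Multiset.induction_on with
  | empty => simp
  | cons b B ih =>
    rw [Multiset.map_cons, Multiset.sum_cons, Multiset.card_cons,
      ih (fun b' hb' => h b' (Multiset.mem_cons_of_mem hb')), h b (Multiset.mem_cons_self b B)]
    ring

end Vale.Agent.Lib.P302.helper86
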