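import Vale.Agent.Lib.P302.helper86.NestMain

/-!
The nesting lemma for instances given by lists of types `(length, multiplicity)`, with all side
conditions in kernel-evaluable form.
-/

namespace Vale.Agent.Lib.P302.helper86

open Vale.Agent.Lib.P302.helper49

theorem items_filter (p : ℕ → Bool) (ts : List (ℕ × ℕ)) :
    items (ts.filter (fun t => p t.1)) = (items ts).filter (fun x => p x = true) := by
  induction ts with
  | nil => simp
  | cons t ts ih =>
    rw [List.filter_cons, items_cons, Multiset.filter_add, ← ih]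
    by_cases h : p t.1 = true
    · rw [if_pos h, items_cons]
      congr 1
      exact (Multiset.filter_eq_self.mpr (fun a ha => by
        rw [Multiset.eq_of_mem_replicate ha]; exact h)).symm
    · rw [if_neg h]
      have h0 : Multiset.filter (fun x => p x = true) (Multiset.replicate t.2 t.1) = 0 :=
        Multiset.filter_eq_nil.mpr (fun a ha => by
          rw [Multiset.eq_of_mem_replicate ha]; exact h)
      rw [h0, zero_add]

theorem countP_items (p : ℕ → Bool) (ts : List (ℕ × ℕ)) :
    (items ts).countP (fun x => p x = true) =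
      ((ts.filter (fun t => p t.1)).map Prod.snd).sum := by
  rw [Multiset.countP_eq_card_filter, ← items_filter, card_items]

/-- Insert one item of length `d` into a decreasing list of types. -/
def insD (d : ℕ) : List (ℕ × ℕ) → List (ℕ × ℕ)
  | [] => [(d, 1)]
  | (s, n) :: r => bif Nat.blt s d then (d, 1) :: (s, n) :: r else (s, n) :: insD d r

theorem items_insD (d : ℕ) : ∀ ts : List (ℕ × ℕ), items (insD d ts) = d ::ₘ items ts
  | [] => by simp [insD]
  | (s, n) :: r => by
    rw [insD]
    cases Nat.blt s d with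
    | true =>
      rw [cond_true, items_cons, Multiset.replicate_one, Multiset.singleton_add]
    | false =>
      rw [cond_false, items_cons, items_insD d r, items_cons, Multiset.add_cons]

theorem items_bump (t m : ℕ) (r : List (ℕ × ℕ)) :
    items ((t, m + 2) :: r) = t ::ₘ t ::ₘ items ((t, m) :: r) := by
  rw [items_cons, items_cons, Multiset.replicate_succ, Multiset.replicate_succ,
    Multiset.cons_add, Multiset.cons_add]

theorem forall_items {ts : List (ℕ × ℕ)} {P : ℕ → Prop} (h : ∀ u ∈ ts, P u.1) :
    ∀ x ∈ items ts, P x := by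
  intro x hx
  obtain ⟨u, hu, rfl⟩ := List.mem_map.mp (mem_items hx)
  exact h u hu

theorem perf_tripleMatch {L : ℕ} {M : Multiset ℕ} {T : ℕ} (h : Perf L M) (hT : M.card = 3 * T) :
    TripleMatch L M T := by
  obtain ⟨B, hB, hj⟩ := h
  have hc := card_join_triples B (fun b hb => (hB b hb).1)
  rw [hj] at hc
  exact ⟨B, by omega, hB, hj.le⟩

/-- A refutation by `refuteP` shows that the items are not partitionable into fitting
triples. -/
theorem not_perf_of_refuteP {L fuel T : ℕ} {ts : List (ℕ × ℕ)} (hs : sortedDesc ts = true)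
    (hT : (ts.map Prod.snd).sum = 3 * T) (h : refuteP L [] fuel ts T = true) :
    ¬ Perf L (items ts) := by
  intro hp
  have htm := perf_tripleMatch hp (by rw [card_items]; exact hT)
  exact refuteP_sound (sortedDesc_spec ts hs) (fun wd hwd => by simp at hwd) fuel ts T rfl
    le_rfl h htm

/-- The nesting lemma for a list of types. -/
theorem nest_list {L θH V jlo jhi glo d nH fuel t m : ℕ} {ts r : List (ℕ × ℕ)}
    (hθV : θH ≤ V) (hVj : V < jlo) (hjj : jlo ≤ jhi) (hjg : jhi < glo)
    (hbig : L < glo + V + jlo)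
    (hcls : ∀ u ∈ ts, u.1 < θH ∨ u.1 = V ∨ (jlo ≤ u.1 ∧ u.1 ≤ jhi) ∨ glo ≤ u.1)
    (hH : ((ts.filter (fun u => decide (u.1 < θH))).map Prod.snd).sum = nH)
    (hG : ((ts.filter (fun u => decide (glo ≤ u.1))).map Prod.snd).sum + 1 = 2 * nH)
    (hV : ((ts.filter (fun u => decide (V = u.1))).map Prod.snd).sum = 2)
    (hdfit : ∀ u ∈ ts, θH + u.1 + d ≤ L + 1)
    (hPs : sortedDesc (insD d (ts.filter (fun u => decide (u.1 < θH) || decide (glo ≤ u.1))))
      = true)
    (hPP : refuteP L [] fuel
      (insD d (ts.filter (fun u => decide (u.1 < θH) || decide (glo ≤ u.1)))) nH = true)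
    (hJ : ts.filter (fun u => decide (jlo ≤ u.1) && decide (u.1 ≤ jhi)) = (t, m + 2) :: r)
    (hr : ∀ u ∈ r, u.1 ≤ t)
    (hX : ¬ Perf L (items ((t, m) :: r))) : ¬ Perf L (items ts) := by
  have hmem : ∀ x ∈ items ts, ∃ u ∈ ts, u.1 = x := by
    intro x hx
    obtain ⟨u, hu, rfl⟩ := List.mem_map.mp (mem_items hx)
    exact ⟨u, hu, rfl⟩
  have hH' : (items ts).countP (fun x => x < θH) = nH := by
    have h1 := countP_items (fun x => decide (x < θH)) ts
    simp only [decide_eq_true_eq] at h1
    rw [h1]; exact hH
  have hG' : (items ts).countP (fun x => glo ≤ x) + 1 = 2 * nH := by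
    have h1 := countP_items (fun x => decide (glo ≤ x)) ts
    simp only [decide_eq_true_eq] at h1
    rw [h1]; exact hG
  have hV' : (items ts).count V = 2 := by
    have h1 := countP_items (fun x => decide (V = x)) ts
    simp only [decide_eq_true_eq] at h1
    exact h1.trans hV
  have hF : items (insD d (ts.filter (fun u => decide (u.1 < θH) || decide (glo ≤ u.1)))) =
      d ::ₘ (items ts).filter (fun x => x < θH ∨ glo ≤ x) := by
    rw [items_insD, items_filter (fun x => decide (x < θH) || decide (glo ≤ x))]
    simp only [Bool.or_eq_true, decide_eq_true_eq]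
  have hJ' : (items ts).filter (fun x => jlo ≤ x ∧ x ≤ jhi) = t ::ₘ t ::ₘ items ((t, m) :: r) := by
    rw [← items_bump, ← hJ, items_filter (fun x => decide (jlo ≤ x) && decide (x ≤ jhi))]
    simp only [Bool.and_eq_true, decide_eq_true_eq]
  refine nest (d := d) (nH := nH) hθV hVj hjj hjg hbig ?_ hH' hG' hV' ?_ ?_ hJ' ?_ hX
  · intro x hx
    obtain ⟨u, hu, rfl⟩ := hmem x hx
    exact hcls u hu
  · intro x hx y hy hxθ
    obtain ⟨u, hu, rfl⟩ := hmem y hy
    have := hdfit u hu
    omega
  · rw [← hF]
    exact refuteP_sound (sortedDesc_spec _ hPs) (fun wd hwd => by simp at hwd) fuel _ nH rfl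
      le_rfl hPP
  · intro x hx
    rw [items_cons, Multiset.mem_add] at hx
    rcases hx with hx | hx
    · exact le_of_eq (Multiset.eq_of_mem_replicate hx)
    · obtain ⟨u, hu, rfl⟩ := List.mem_map.mp (mem_items hx)
      exact hr u hu

end Vale.Agent.Lib.P302.helper86
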