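import Vale.Agent.Lib.P302.helper86.Nest

namespace Vale.Agent.Lib.P302.helper86

open Vale.Agent.Lib.P302.helper49

/-- The nesting lemma: an outer block of `nH` hosts, `2 nH - 1` guests and one pair of mid items
around an inner multiset `t, t, X` is not partitionable into fitting triples, if `X` is not and
the block cannot serve `nH - 1` hosts with two guests each. -/
theorem nest {L θH V jlo jhi glo d nH t : ℕ} {M X : Multiset ℕ}
    (hθV : θH ≤ V) (hVj : V < jlo) (hjj : jlo ≤ jhi) (hjg : jhi < glo)
    (hbig : L < glo + V + jlo)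
    (hcls : ∀ x ∈ M, x < θH ∨ x = V ∨ (jlo ≤ x ∧ x ≤ jhi) ∨ glo ≤ x)
    (hH : M.countP (fun x => x < θH) = nH) (hG : M.countP (fun x => glo ≤ x) + 1 = 2 * nH)
    (hV : M.count V = 2)
    (hdfit : ∀ x ∈ M, ∀ y ∈ M, x < θH → x + y + d ≤ L)
    (hPP : ¬ TripleMatch L (d ::ₘ M.filter (fun x => x < θH ∨ glo ≤ x)) nH)
    (hJ : M.filter (fun x => jlo ≤ x ∧ x ≤ jhi) = t ::ₘ t ::ₘ X) (hXt : ∀ x ∈ X, x ≤ t)
    (hX : ¬ Perf L X) : ¬ Perf L M := by
  rintro ⟨B, hB, hj⟩
  have sG : (B.map (fun b => b.countP (fun x => glo ≤ x))).sum + 1 = 2 * nH := by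
    rw [← countP_join, hj]; exact hG
  have sH : (B.map (fun b => b.countP (fun x => x < θH))).sum = nH := by
    rw [← countP_join, hj]; exact hH
  have sV : (B.map (fun b => b.count V)).sum = 2 := by
    have h1 := countP_join (fun x => V = x) B
    rw [hj] at h1
    exact h1.symm.trans hV
  have hmemM : ∀ b ∈ B, ∀ x ∈ b, x ∈ M := fun b hb x hx =>
    hj ▸ Multiset.mem_join.mpr ⟨b, hb, hx⟩
  have tf := fun b (hb : b ∈ B) => triple_facts hθV hVj hjj hjg hbig (hB b hb).1 (hB b hb).2
    (fun x hx => hcls x (hmemM b hb x hx))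
  -- the triples with one host and two guests
  have hB2 : ∀ b ∈ B.filter (fun b => b.countP (fun x => glo ≤ x) = 2 ∧
      b.countP (fun x => x < θH) = 1), b ∈ B ∧ b.countP (fun x => glo ≤ x) = 2 ∧
      b.countP (fun x => x < θH) = 1 := fun b hb => Multiset.mem_filter.mp hb
  -- summing the inequalities
  have hsum := Multiset.sum_map_le_sum_map _ _ (fun b hb => (tf b hb).1)
  rw [Multiset.sum_map_mul_left, Multiset.sum_map_add, Multiset.sum_map_add,
    Multiset.sum_map_mul_left, Multiset.sum_map_mul_left, sum_ind, sH, sV] at hsum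
  -- at most `nH - 2` such triples: the pair-packing bound
  have hPPb : ¬ nH ≤ (B.filter (fun b => b.countP (fun x => glo ≤ x) = 2 ∧
      b.countP (fun x => x < θH) = 1)).card + 1 := by
    intro hge
    have hNle : (B.filter (fun b => b.countP (fun x => glo ≤ x) = 2 ∧
        b.countP (fun x => x < θH) = 1)).join ≤ M := hj ▸ filter_join_le B _
    have hNG : ((B.filter (fun b => b.countP (fun x => glo ≤ x) = 2 ∧
        b.countP (fun x => x < θH) = 1)).join).countP (fun x => glo ≤ x) =
        (B.filter (fun b => b.countP (fun x => glo ≤ x) = 2 ∧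
        b.countP (fun x => x < θH) = 1)).card * 2 := by
      rw [countP_join]
      exact sum_map_const_card _ _ (fun b hb => (hB2 b hb).2.1)
    have hNH : ((B.filter (fun b => b.countP (fun x => glo ≤ x) = 2 ∧
        b.countP (fun x => x < θH) = 1)).join).countP (fun x => x < θH) =
        (B.filter (fun b => b.countP (fun x => glo ≤ x) = 2 ∧
        b.countP (fun x => x < θH) = 1)).card * 1 := by
      rw [countP_join]
      exact sum_map_const_card _ _ (fun b hb => (hB2 b hb).2.2)
    have hNc : ((B.filter (fun b => b.countP (fun x => glo ≤ x) = 2 ∧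
        b.countP (fun x => x < θH) = 1)).join).card =
        3 * (B.filter (fun b => b.countP (fun x => glo ≤ x) = 2 ∧
        b.countP (fun x => x < θH) = 1)).card :=
      card_join_triples _ (fun b hb => (hB b (hB2 b hb).1).1)
    have hGle := Multiset.countP_le_of_le (fun x => glo ≤ x) hNle
    have hNF : (B.filter (fun b => b.countP (fun x => glo ≤ x) = 2 ∧
        b.countP (fun x => x < θH) = 1)).join ≤ M.filter (fun x => x < θH ∨ glo ≤ x) := by
      refine Multiset.le_filter.mpr ⟨hNle, fun a ha => ?_⟩
      obtain ⟨b, hb, hab⟩ := Multiset.mem_join.mp ha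
      exact (tf b (hB2 b hb).1).2.2.1 (hB2 b hb).2 a hab
    have hFc : (M.filter (fun x => x < θH ∨ glo ≤ x)).card + 1 = 3 * nH := by
      rw [← Multiset.countP_eq_card_filter, countP_or_disj (by omega)]
      omega
    have hFH : (M.filter (fun x => x < θH ∨ glo ≤ x)).countP (fun x => x < θH) = nH := by
      rw [Multiset.countP_filter, ← hH]
      apply Multiset.countP_congr rfl
      intro x _
      simp only [eq_iff_iff]
      constructor
      · exact fun h => h.1
      · exact fun h => ⟨h, Or.inl h⟩
    generalize hNdef : (B.filter (fun b => b.countP (fun x => glo ≤ x) = 2 ∧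
        b.countP (fun x => x < θH) = 1)).join = N at hNle hNG hNH hNc hGle hNF
    generalize hFdef : M.filter (fun x => x < θH ∨ glo ≤ x) = F at hNF hFc hFH hPP
    have hFM : F ≤ M := hFdef ▸ Multiset.filter_le _ _
    have hc2 : (F - N).card = 2 := by
      rw [Multiset.card_sub hNF]
      omega
    have hh1 : (F - N).countP (fun x => x < θH) = 1 := by
      rw [Multiset.countP_sub hNF]
      omega
    obtain ⟨u, hu, huH⟩ := Multiset.countP_pos.mp (by omega : 0 < (F - N).countP (fun x => x < θH))
    obtain ⟨r, hr⟩ := Multiset.exists_cons_of_mem hu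
    have hr1 : r.card = 1 := by
      rw [hr, Multiset.card_cons] at hc2
      omega
    obtain ⟨w, rfl⟩ := Multiset.card_eq_one.mp hr1
    have hFN : F - N ≤ F := Multiset.sub_le_self _ _
    have huM : u ∈ M := Multiset.mem_of_le (hFN.trans hFM) hu
    have hwM : w ∈ M := Multiset.mem_of_le (hFN.trans hFM) (by rw [hr]; simp)
    have hfit := hdfit u huM w hwM huH
    apply hPP
    refine ⟨(u ::ₘ w ::ₘ {d}) ::ₘ B.filter (fun b => b.countP (fun x => glo ≤ x) = 2 ∧
      b.countP (fun x => x < θH) = 1), ?_, ?_, ?_⟩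
    · rw [Multiset.card_cons]
      exact hge
    · intro b hb
      rw [Multiset.mem_cons] at hb
      rcases hb with rfl | hb
      · refine ⟨by simp, ?_⟩
        simp only [Multiset.sum_cons, Multiset.sum_singleton]
        omega
      · exact hB b (hB2 b hb).1
    · rw [Multiset.join_cons, hNdef]
      have h1 := tsub_add_cancel_of_le hNF
      rw [hr] at h1
      rw [← h1]
      apply le_of_eq
      simp only [Multiset.cons_add, Multiset.singleton_add]
      rw [Multiset.cons_swap w d N, Multiset.cons_swap u d]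
  have sG' : (B.map (Multiset.countP fun x => glo ≤ x)).sum + 1 = 2 * nH := sG
  -- hence equality holds in every triple
  have hE : ∀ b ∈ B, 2 * b.countP (fun x => glo ≤ x) = 2 * b.countP (fun x => x < θH) +
      b.count V + 2 * (if b.countP (fun x => glo ≤ x) = 2 ∧ b.countP (fun x => x < θH) = 1
        then 1 else 0) := by
    intro b hb
    by_contra hne
    have hlt := lt_of_le_of_ne (tf b hb).1 hne
    have hs := Multiset.sum_lt_sum (fun b hb => (tf b hb).1) ⟨b, hb, hlt⟩
    rw [Multiset.sum_map_mul_left, Multiset.sum_map_add, Multiset.sum_map_add,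
      Multiset.sum_map_mul_left, Multiset.sum_map_mul_left, sum_ind, sH, sV] at hs
    omega
  -- the triples containing a guest
  have hcnt : ∀ b ∈ B, 2 * (if ¬ b.countP (fun x => glo ≤ x) = 0 then 1 else 0) =
      2 * b.countP (fun x => x < θH) + b.count V := by
    intro b hb
    have h1 := hE b hb
    have h2 := (tf b hb).2.1
    split_ifs at h1 ⊢ <;> omega
  have hs1 := congrArg Multiset.sum (Multiset.map_congr rfl hcnt)
  rw [Multiset.sum_map_mul_left, sum_ind, Multiset.sum_map_add, Multiset.sum_map_mul_left,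
    sH, sV] at hs1
  have hsplit := congrArg Multiset.card
    (Multiset.filter_add_not (fun b : Multiset ℕ => b.countP (fun x => glo ≤ x) = 0) B)
  rw [Multiset.card_add] at hsplit
  have hMc : M.card = 3 * B.card := hj ▸ card_join_triples B (fun b hb => (hB b hb).1)
  have hcl := card_classes hθV hVj hjj hjg M hcls
  rw [hH, hV, Multiset.countP_eq_card_filter, hJ] at hcl
  simp only [Multiset.card_cons] at hcl
  -- the triples without guests consist of inner items
  have hB0 : ∀ b ∈ B.filter (fun b : Multiset ℕ => b.countP (fun x => glo ≤ x) = 0),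
      ∀ x ∈ b, jlo ≤ x ∧ x ≤ jhi := by
    intro b hb
    obtain ⟨hbB, h0⟩ := Multiset.mem_filter.mp hb
    have h1 := hE b hbB
    apply (tf b hbB).2.2.2
    split_ifs at h1 <;> omega
  have hR : (B.filter (fun b : Multiset ℕ => b.countP (fun x => glo ≤ x) = 0)).join ≤
      t ::ₘ t ::ₘ X := by
    rw [← hJ]
    refine Multiset.le_filter.mpr ⟨hj ▸ filter_join_le B _, fun a ha => ?_⟩
    obtain ⟨b, hb, hab⟩ := Multiset.mem_join.mp ha
    exact hB0 b hb a hab
  have hRc : ((B.filter (fun b : Multiset ℕ => b.countP (fun x => glo ≤ x) = 0)).join).card =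
      X.card := by
    rw [card_join_triples _ (fun b hb => (hB b (Multiset.mem_of_mem_filter hb)).1)]
    omega
  exact hX (perf_of_sub hXt hR hRc
    ⟨_, fun b hb => hB b (Multiset.mem_of_mem_filter hb), rfl⟩)

end Vale.Agent.Lib.P302.helper86
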